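import Vale.Agent.P209.All3

open Vale.Agent.P209

theorem Vale.Agent.Results.P209.PackAll.result :
    ∀ n : ℕ, 3 ≤ n → ∀ (k : ℕ) (R : ℝ) (r : Fin k → ℝ), 0 < R → (∀ i, 0 < r i) →
      ∑ i, r i ^ n < R ^ n → (∀ i j, i < j → r i + r j < R) → Packs n k r R :=
  packs_all
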